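import Mathlib

open Polynomial

namespace Vale.Agent.P181

variable {Q : Type*} [CommRing Q] [Algebra ℂ Q]

/-- A polynomial whose values at all scalars lie in a subspace has its coefficients there. -/
theorem coeff_mem_of_eval_mem (U : Submodule ℂ Q) (p : Q[X])
    (h : ∀ z : ℂ, p.eval (algebraMap ℂ Q z) ∈ U) (j : ℕ) : p.coeff j ∈ U := by
  by_contra hj
  obtain ⟨φ, hφ, hker⟩ := Submodule.exists_le_ker_of_notMem hj
  let q : ℂ[X] := ∑ i ∈ Finset.range (p.natDegree + 1), Polynomial.monomial i (φ (p.coeff i))
  have hq : q = 0 := by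
    apply Polynomial.funext
    intro z
    have h1 : φ (p.eval (algebraMap ℂ Q z)) = 0 := hker (h z)
    rw [Polynomial.eval_eq_sum_range, map_sum] at h1
    simp only [q, eval_finsetSum, eval_monomial, eval_zero]
    rw [← h1]
    refine Finset.sum_congr rfl fun i _ => ?_
    rw [← map_pow, mul_comm (p.coeff i), ← Algebra.smul_def, map_smul, smul_eq_mul, mul_comm]
  by_cases hjn : j ≤ p.natDegree
  · have h2 := congrArg (fun r : ℂ[X] => r.coeff j) hq
    simp only [q, finsetSum_coeff, coeff_monomial, coeff_zero] at h2
    rw [Finset.sum_ite_eq' (Finset.range (p.natDegree + 1)) j] at h2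
    rw [if_pos (Finset.mem_range.2 (by omega))] at h2
    exact hφ h2
  · rw [Polynomial.coeff_eq_zero_of_natDegree_lt (by omega), map_zero] at hφ
    exact hφ rfl

theorem eq_zero_of_eval_eq_zero (p : Q[X])
    (h : ∀ z : ℂ, p.eval (algebraMap ℂ Q z) = 0) : p = 0 := by
  ext j
  simpa using coeff_mem_of_eval_mem ⊥ p (by simpa using h) j

/-- Products of values of a linear map are spanned by powers of its values. -/
theorem prod_mem_span_pow {V : Type*} [AddCommGroup V] [Module ℂ V] (f : V →ₗ[ℂ] Q) :
    ∀ (m : ℕ) (u : Fin m → V),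
      ∏ l, f (u l) ∈ Submodule.span ℂ (Set.range fun w : V => f w ^ m) := by
  intro m
  induction m with
  | zero =>
    intro u
    exact Submodule.subset_span ⟨0, by simp⟩
  | succ m ih =>
    intro u
    rw [Fin.prod_univ_succ]
    let U := Submodule.span ℂ (Set.range fun w : V => f w ^ (m + 1))
    have key : ∀ w, f (u 0) * f w ^ m ∈ U := by
      intro w
      have h1 := coeff_mem_of_eval_mem U ((C (f w) + X * C (f (u 0))) ^ (m + 1)) (fun z => by
        refine Submodule.subset_span ⟨w + z • u 0, ?_⟩
        simp [map_add, map_smul, Algebra.smul_def]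
        ring) 1
      have h2 : ((C (f w) + X * C (f (u 0))) ^ (m + 1)).coeff 1
          = ((m + 1 : ℕ) : ℂ) • (f (u 0) * f w ^ m) := by
        rw [add_comm (C (f w)), add_pow, finsetSum_coeff,
          Finset.sum_eq_single 1]
        · simp only [mul_pow, pow_one, ← C_pow, ← Polynomial.C_eq_natCast, mul_assoc, ← C_mul]
          rw [coeff_X_mul, coeff_C_zero, Algebra.smul_def, map_natCast, Nat.choose_one_right]
          simp
          ring
        · intro i _ hi
          simp only [mul_pow, ← C_pow, ← Polynomial.C_eq_natCast, mul_assoc, ← C_mul]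
          rw [coeff_X_pow_mul']
          split_ifs with h3
          · have : i = 0 := by omega
            subst this
            rw [coeff_C, if_neg (by omega)]
          · rfl
        · simp
      rw [h2] at h1
      exact (U.smul_mem_iff (by exact_mod_cast Nat.succ_ne_zero m)).1 h1
    have h3 : Submodule.map (LinearMap.mulLeft ℂ (f (u 0)))
        (Submodule.span ℂ (Set.range fun w : V => f w ^ m)) ≤ U := by
      rw [Submodule.map_span, Submodule.span_le]
      rintro _ ⟨_, ⟨w, rfl⟩, rfl⟩
      exact key w
    exact h3 ⟨_, ih (fun l => u l.succ), rfl⟩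

omit [Algebra ℂ Q] in
/-- If a power of a linear polynomial kills a polynomial, a power of its leading
coefficient kills the coefficients. -/
theorem kill_coeff (x u : Q) (N d : ℕ) (G : Q[X]) (hdeg : G.natDegree ≤ d)
    (h : (C u + X * C x) ^ N * G = 0) :
    ∀ l, l ≤ d → x ^ (N + (d - l)) * G.coeff l = 0 := by
  suffices H : ∀ j l, l ≤ d → d - l = j → x ^ (N + j) * G.coeff l = 0 from
    fun l hl => H _ l hl rfl
  intro j
  induction j using Nat.strong_induction_on with
  | _ j ih =>
    intro l hl hj
    have h0 := congrArg (fun r : Q[X] => r.coeff (N + l)) h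
    simp only [coeff_zero] at h0
    rw [add_comm (C u), add_pow, Finset.sum_mul, finsetSum_coeff] at h0
    have h1 : ∀ i ∈ Finset.range (N + 1),
        (((X * C x) ^ i * (C u) ^ (N - i) * (N.choose i : Q[X])) * G).coeff (N + l)
          = x ^ i * u ^ (N - i) * (N.choose i : Q) * G.coeff (N + l - i) := by
      intro i hi
      rw [Finset.mem_range] at hi
      simp only [mul_pow, ← C_pow, ← Polynomial.C_eq_natCast, mul_assoc]
      rw [coeff_X_pow_mul', if_pos (by omega)]
      simp only [← mul_assoc, ← C_mul, coeff_C_mul]
    rw [Finset.sum_congr rfl h1, Finset.sum_range_succ] at h0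
    simp only [Nat.sub_self, pow_zero, mul_one, Nat.choose_self, Nat.cast_one,
      Nat.add_sub_cancel_left] at h0
    have h2 := congrArg (fun y => x ^ j * y) h0
    simp only [mul_add, Finset.mul_sum, mul_zero] at h2
    rw [Finset.sum_eq_zero, zero_add, ← mul_assoc, ← pow_add, add_comm] at h2
    · exact h2
    intro i hi
    rw [Finset.mem_range] at hi
    by_cases hbig : d < N + l - i
    · rw [Polynomial.coeff_eq_zero_of_natDegree_lt (by omega)]
      ring
    · have h3 := ih (d - (N + l - i)) (by omega) (N + l - i) (by omega) rfl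
      have e : N + (d - (N + l - i)) = i + j := by omega
      rw [e] at h3
      calc x ^ j * (x ^ i * u ^ (N - i) * (N.choose i : Q) * G.coeff (N + l - i))
          = u ^ (N - i) * (N.choose i : Q) * (x ^ (i + j) * G.coeff (N + l - i)) := by ring
        _ = 0 := by rw [h3]; simp

/-- The Dedekind-Mertens type lemma for products of linear forms. -/
theorem dedekind_mertens {V : Type*} [AddCommGroup V] [Module ℂ V] (N : ℕ) :
    ∀ (a : ℕ) (f : Fin a → (V →ₗ[ℂ] Q)) (c : Q),
      (∀ v, (∏ i, f i v ^ N) * c = 0) →
      ∀ w : Fin a → V, (∏ i, f i (w i) ^ ((a - (i : ℕ)) * N)) * c = 0 := by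
  intro a
  induction a with
  | zero => intro f c h w; simpa using h 0
  | succ a ih =>
    intro f c h w
    have key : ∀ v, (∏ i : Fin a, f i.succ v ^ N) * (f 0 (w 0) ^ ((a + 1) * N) * c) = 0 := by
      intro v
      let G : Q[X] := (∏ i : Fin a, (C (f i.succ v) + X * C (f i.succ (w 0))) ^ N) * C c
      have hdeg : G.natDegree ≤ a * N := by
        refine (natDegree_mul_C_le _ _).trans ((natDegree_prod_le _ _).trans ?_)
        calc _ ≤ ∑ _i : Fin a, N := Finset.sum_le_sum fun i _ => by
                refine natDegree_pow_le.trans ?_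
                refine (Nat.mul_le_mul_left N ?_).trans (by rw [mul_one])
                compute_degree
          _ = a * N := by simp
      have hz : (C (f 0 v) + X * C (f 0 (w 0))) ^ N * G = 0 := by
        apply eq_zero_of_eval_eq_zero
        intro z
        have hh := h (v + z • w 0)
        rw [Fin.prod_univ_succ] at hh
        simp only [G, eval_mul, eval_pow, eval_add, eval_C, eval_X, eval_prod]
        simp only [map_add, map_smul, Algebra.smul_def] at hh
        rw [← hh]
        ring
      have h1 := kill_coeff _ _ N (a * N) G hdeg hz 0 (Nat.zero_le _)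
      have h2 : G.coeff 0 = (∏ i : Fin a, f i.succ v ^ N) * c := by
        simp [G, coeff_zero_eq_eval_zero, eval_prod]
      rw [h2, Nat.sub_zero] at h1
      rw [← h1]
      ring
    have h3 := ih (fun i => f i.succ) _ key (fun i => w i.succ)
    rw [Fin.prod_univ_succ]
    simp only [Fin.val_zero, Nat.sub_zero, Fin.val_succ, Nat.add_sub_add_right]
    rw [← h3]
    ring

end Vale.Agent.P181
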