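import Vale.Agent.P181.Basics

namespace Vale.Agent.P181

open Polynomial

section

variable {K : Type*} [Field K] [Algebra ℂ K]

/-- The elements which land in the degree `d` part after multiplication by `t ^ d`. -/
def filt (A : Submodule ℂ K) (t : K) (d : ℕ) : Submodule ℂ K :=
  (A ^ d).comap (LinearMap.mulLeft ℂ (t ^ d))

omit [Algebra ℂ K] in
/-- The first coefficients of a product of binomials. -/
theorem coeff_prod_binom {ι : Type*} (s : Finset ι) (c : ι → K) (d : ℕ) (hd : 0 < d) :
    (∏ i ∈ s, (1 - C (c i) * X ^ d)).coeff 0 = 1 ∧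
    (∏ i ∈ s, (1 - C (c i) * X ^ d)).coeff d = -∑ i ∈ s, c i := by
  classical
  induction s using Finset.induction with
  | empty => simp [coeff_one, hd.ne']
  | insert i s hi ih =>
    obtain ⟨h0, h1⟩ := ih
    rw [Finset.prod_insert hi, Finset.sum_insert hi, sub_mul, one_mul, mul_assoc]
    constructor
    · simp [h0, hd.ne]
    · simp [h0, h1, coeff_X_pow_mul']
      ring

theorem mem_filt {A : Submodule ℂ K} {t x : K} {d : ℕ} :
    x ∈ filt A t d ↔ t ^ d * x ∈ A ^ d := Iff.rfl

theorem filt_mul {A : Submodule ℂ K} {t x y : K} {d e : ℕ} (hx : x ∈ filt A t d)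
    (hy : y ∈ filt A t e) : x * y ∈ filt A t (d + e) := by
  rw [mem_filt] at *
  have : t ^ (d + e) * (x * y) = (t ^ d * x) * (t ^ e * y) := by ring
  rw [this, pow_add]
  exact Submodule.mul_mem_mul hx hy

theorem one_mem_filt_zero {A : Submodule ℂ K} {t : K} : (1 : K) ∈ filt A t 0 := by
  rw [mem_filt, mul_one, Submodule.pow_zero, pow_zero]
  exact (Submodule.one_le (P := (1 : Submodule ℂ K))).1 le_rfl

theorem prod_mem_filt {A : Submodule ℂ K} {t : K} {ι : Type*} (s : Finset ι) (x : ι → K)
    (hx : ∀ i ∈ s, x i ∈ filt A t 1) : ∏ i ∈ s, x i ∈ filt A t s.card := by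
  classical
  induction s using Finset.induction with
  | empty => simpa using one_mem_filt_zero
  | insert i s hi ih =>
    rw [Finset.prod_insert hi, Finset.card_insert_of_notMem hi, add_comm]
    exact filt_mul (hx i (Finset.mem_insert_self i s))
      (ih fun j hj => hx j (Finset.mem_insert_of_mem hj))

variable {a : ℕ} {V : Type*} [AddCommGroup V] [Module ℂ V]

/-- The sum of a function over the points. -/
def total : (Fin a → K) →ₗ[ℂ] K where
  toFun m := ∑ i, m i
  map_add' m m' := by simp [Finset.sum_add_distrib]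
  map_smul' c m := by simp [Finset.smul_sum]

variable (A : Submodule ℂ K) (t : K) (r : V →ₗ[ℂ] (Fin a → K))
  (hA : ∀ w, t * ∏ i, (1 + r w i) ∈ A)

include hA

theorem psum_pow_mem (d : ℕ) (w : V) : ∑ i, r w i ^ d ∈ filt A t d := by
  rcases Nat.eq_zero_or_pos d with rfl | hd
  · simp only [pow_zero, Finset.sum_const, Finset.card_univ, Fintype.card_fin]
    exact Submodule.smul_of_tower_mem _ a one_mem_filt_zero
  let ζ : ℂ := Complex.exp (2 * Real.pi * Complex.I / d)
  have hζ : IsPrimitiveRoot ζ d := Complex.isPrimitiveRoot_exp d hd.ne'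
  have hK : IsPrimitiveRoot (algebraMap ℂ K ζ) d :=
    hζ.map_of_injective (algebraMap ℂ K).injective
  have hmem : ∀ μ ∈ Polynomial.nthRootsFinset d (1 : K),
      ∃ z : ℂ, algebraMap ℂ K z = μ := by
    intro μ hμ
    haveI : NeZero d := ⟨hd.ne'⟩
    obtain ⟨i, _, rfl⟩ := hK.eq_pow_of_pow_eq_one
      (ξ := μ) (by have := Polynomial.mem_nthRootsFinset hd (a := (1 : K)) |>.1 hμ; exact this)
    exact ⟨ζ ^ i, map_pow _ _ _⟩
  have h1 := coeff_mem_of_eval_mem (filt A t d) (∏ i, (1 - C (r w i ^ d) * X ^ d)) (fun z => by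
    have e : (∏ i, (1 - C (r w i ^ d) * X ^ d)).eval (algebraMap ℂ K z)
        = ∏ μ ∈ Polynomial.nthRootsFinset d (1 : K), ∏ i, (1 - μ * (r w i * algebraMap ℂ K z)) := by
      rw [Finset.prod_comm, eval_prod]
      refine Finset.prod_congr rfl fun i _ => ?_
      rw [← hK.pow_sub_pow_eq_prod_sub_mul 1 (r w i * algebraMap ℂ K z) hd]
      simp [mul_pow]
    rw [e]
    rw [← hK.card_nthRootsFinset]
    conv => arg 2; arg 1; rw [hK.card_nthRootsFinset]
    refine prod_mem_filt _ _ fun μ hμ => ?_
    obtain ⟨c, rfl⟩ := hmem μ hμ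
    rw [mem_filt, pow_one, pow_one]
    have := hA ((-(c * z)) • w)
    convert this using 2
    refine Finset.prod_congr rfl fun i _ => ?_
    simp [map_smul, Algebra.smul_def]
    ring) d
  rw [(coeff_prod_binom Finset.univ _ d hd).2] at h1
  exact (filt A t d).neg_mem_iff.1 h1

theorem total_mul_mem (d : ℕ) (m : Fin a → K)
    (hm : m ∈ Submodule.span ℂ (Set.range r) ^ d) : ∑ i, m i ∈ filt A t d := by
  have key : Submodule.span ℂ (Set.range r) ^ d ≤ (filt A t d).comap total := by
    rw [Submodule.span_pow, Submodule.span_le]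
    intro p hp
    obtain ⟨f, rfl⟩ := Set.mem_pow.1 hp
    choose u hu using fun l => (f l).2
    have h2 := prod_mem_span_pow r d u
    rw [List.prod_ofFn]
    simp only [← hu]
    refine Submodule.span_le.2 ?_ h2
    rintro _ ⟨w, rfl⟩
    exact psum_pow_mem A t r hA d w
  exact key hm

/-- Sums over injective maps lie in the filtration. -/
theorem inj_sum_mem : ∀ (k : ℕ) (d : Fin k → ℕ) (m : Fin k → (Fin a → K)),
    (∀ l, m l ∈ Submodule.span ℂ (Set.range r) ^ d l) →
    (∑ φ : Fin k → Fin a, if Function.Injective φ then ∏ l, m l (φ l) else 0)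
      ∈ filt A t (∑ l, d l) := by
  classical
  intro k
  induction k with
  | zero =>
    intro d m _
    simpa [Function.injective_of_subsingleton] using one_mem_filt_zero (A := A) (t := t)
  | succ k ih =>
    intro d m hm
    let rest : Fin k → (Fin a → K) := fun l => m l.succ
    let upd : Fin k → Fin k → (Fin a → K) := fun j => Function.update rest j (m 0 * rest j)
    let P : (Fin k → (Fin a → K)) → K := fun g =>
      ∑ φ : Fin k → Fin a, if Function.Injective φ then ∏ l, g l (φ l) else 0
    have hprod : ∀ (j : Fin k) (φ : Fin k → Fin a),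
        ∏ l, upd j l (φ l) = m 0 (φ j) * ∏ l, rest l (φ l) := by
      intro j φ
      rw [← Finset.mul_prod_erase _ _ (Finset.mem_univ j),
        ← Finset.mul_prod_erase _ (fun l => rest l (φ l)) (Finset.mem_univ j)]
      have : ∀ l ∈ Finset.univ.erase j, upd j l (φ l) = rest l (φ l) := by
        intro l hl
        simp [upd, Finset.ne_of_mem_erase hl]
      rw [Finset.prod_congr rfl this]
      simp [upd, mul_assoc]
    have hrec : (∑ φ : Fin (k + 1) → Fin a,
        if Function.Injective φ then ∏ l, m l (φ l) else 0)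
          = (∑ i, m 0 i) * P rest - ∑ j, P (upd j) := by
      rw [← Equiv.sum_comp (Fin.consEquiv fun _ => Fin a), Fintype.sum_prod_type]
      simp only [P, Finset.mul_sum, hprod]
      rw [Finset.sum_comm (γ := Fin k), ← Finset.sum_sub_distrib, Finset.sum_comm]
      refine Finset.sum_congr rfl fun φ _ => ?_
      simp only [Fin.consEquiv, Equiv.coe_fn_mk, Fin.prod_univ_succ, Fin.cons_zero, Fin.cons_succ,
        Fin.cons_injective_iff]
      by_cases hφ : Function.Injective φ
      · simp only [hφ, and_true, if_true]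
        have hr : ∑ j, m 0 (φ j) = ∑ i, if i ∈ Set.range φ then m 0 i else 0 := by
          rw [← Finset.sum_filter, ← Finset.sum_image (s := Finset.univ) (g := φ)
            (f := m 0) (fun x _ y _ h => hφ h)]
          refine Finset.sum_congr ?_ (fun _ _ => rfl)
          ext i; simp
        rw [← Finset.sum_mul, hr, ← sub_mul, ← Finset.sum_sub_distrib, Finset.sum_mul]
        refine Finset.sum_congr rfl fun i _ => ?_
        by_cases hi : i ∈ Set.range φ <;> simp [hi, rest]
      · simp [hφ]
    rw [hrec, Fin.sum_univ_succ]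
    refine Submodule.sub_mem _ ?_ (Submodule.sum_mem _ fun j _ => ?_)
    · exact filt_mul (total_mul_mem A t r hA _ _ (hm 0))
        (ih (fun l => d l.succ) rest fun l => hm l.succ)
    · have h := ih (Function.update (fun l => d l.succ) j (d 0 + d j.succ)) (upd j) (fun l => by
        by_cases hl : l = j
        · subst hl
          simp only [upd, Function.update_self]
          rw [pow_add]
          exact Submodule.mul_mem_mul (hm 0) (hm l.succ)
        · simp only [upd, Function.update_of_ne hl]
          exact hm l.succ)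
      have e : ∑ l, Function.update (fun l : Fin k => d l.succ) j (d 0 + d j.succ) l
          = d 0 + ∑ l : Fin k, d l.succ := by
        rw [Finset.sum_update_of_mem (Finset.mem_univ j), add_assoc,
          ← Finset.add_sum_erase _ (fun l : Fin k => d l.succ) (Finset.mem_univ j),
          Finset.sdiff_singleton_eq_erase]
      rwa [e] at h

end

end Vale.Agent.P181
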