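import Mathlib

open TensorProduct

namespace Vale.Agent.P181

variable {k : ℕ} {V W : Type} [AddCommGroup V] [Module ℂ V] [AddCommGroup W] [Module ℂ W]

/-- Multiply out a tensor product into a symmetric multilinear map. -/
noncomputable def symLift (f : MultilinearMap ℂ (fun _ : Fin k => V) W)
    (hf : ∀ (e : Equiv.Perm (Fin k)) (v : Fin k → V), f (fun i => v (e i)) = f v) :
    SymmetricPower ℂ (Fin k) V →ₗ[ℂ] W where
  toFun := AddCon.lift _ (PiTensorProduct.lift f).toAddMonoidHom (by
    refine AddCon.addConGen_le.2 fun x y h => ?_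
    cases h with
    | perm e v =>
      rw [AddCon.ker_apply]
      simp only [LinearMap.toAddMonoidHom_coe, PiTensorProduct.lift.tprod, hf])
  map_add' := map_add _
  map_smul' c x := AddCon.induction_on x fun y => (PiTensorProduct.lift f).map_smul c y

theorem symLift_tprod (f : MultilinearMap ℂ (fun _ : Fin k => V) W)
    (hf : ∀ (e : Equiv.Perm (Fin k)) (v : Fin k → V), f (fun i => v (e i)) = f v)
    (v : Fin k → V) : symLift f hf (SymmetricPower.tprod ℂ v) = f v :=
  PiTensorProduct.lift.tprod v

/-- The map of symmetric powers induced by a linear map, sending `v_1 ... v_k` to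
`g v_1 ... g v_k`. -/
noncomputable def symMap (k : ℕ) (g : V →ₗ[ℂ] W) :
    SymmetricPower ℂ (Fin k) V →ₗ[ℂ] SymmetricPower ℂ (Fin k) W :=
  symLift ((SymmetricPower.tprod ℂ).compLinearMap fun _ => g)
    (fun e v => SymmetricPower.tprod_equiv e fun i => g (v i))

theorem symMap_tprod (g : V →ₗ[ℂ] W) (v : Fin k → V) :
    symMap k g (SymmetricPower.tprod ℂ v) = SymmetricPower.tprod ℂ (fun i => g (v i)) :=
  symLift_tprod _ _ v

end Vale.Agent.P181
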