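import Vale.Agent.P181.Basics

open MvPolynomial

namespace Vale.Agent.P181

variable (a n : ℕ)

/-- Polynomials in `a` vectors of length `n`. -/
abbrev Ring' := MvPolynomial (Fin a × Fin n) ℂ

variable {a n}

/-- The linear form `w` applied to the vector number `i`. -/
noncomputable def lf (i : Fin a) : (Fin n → ℂ) →ₗ[ℂ] Ring' a n :=
  Fintype.linearCombination ℂ (fun k => X (i, k))

/-- The product of the values of the linear form `w` on all vectors. -/
noncomputable def theta (w : Fin n → ℂ) : Ring' a n := ∏ i, lf i w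

variable (a n) in
/-- Span of the products of one linear form per vector. -/
noncomputable def S1 : Submodule ℂ (Ring' a n) :=
  Submodule.span ℂ (Set.range fun u : Fin a → (Fin n → ℂ) => ∏ i, lf i (u i))

variable (a n) in
/-- Span of the products of the form `theta`. -/
noncomputable def A1 : Submodule ℂ (Ring' a n) :=
  Submodule.span ℂ (Set.range (theta : (Fin n → ℂ) → Ring' a n))

theorem theta_mem_A1 (w : Fin n → ℂ) : theta w ∈ A1 a n := Submodule.subset_span ⟨w, rfl⟩

theorem prod_lf_mem_S1 (u : Fin a → (Fin n → ℂ)) : ∏ i, lf i (u i) ∈ S1 a n :=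
  Submodule.subset_span ⟨u, rfl⟩

/-- The weight: the degree in each of the vectors. -/
def wt : Fin a × Fin n → (Fin a → ℕ) := fun p => Pi.single p.1 1

/-- The constant multidegree. -/
def cst (a k : ℕ) : Fin a → ℕ := fun _ => k

theorem lf_weight (i : Fin a) (w : Fin n → ℂ) :
    (lf i w).IsWeightedHomogeneous wt (Pi.single i 1) := by
  rw [lf, Fintype.linearCombination_apply]
  refine IsWeightedHomogeneous.sum _ _ _ fun k _ => ?_
  rw [smul_eq_C_mul]
  exact (isWeightedHomogeneous_X ℂ wt (i, k)).C_mul (w k)

theorem theta_weight (w : Fin n → ℂ) :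
    (theta w : Ring' a n).IsWeightedHomogeneous wt (cst a 1) := by
  have h := IsWeightedHomogeneous.prod Finset.univ (fun i : Fin a => lf i w)
    (fun i => Pi.single i (1 : ℕ)) (fun i _ => lf_weight i w)
  rwa [Finset.univ_sum_single (fun _ : Fin a => (1 : ℕ))] at h

theorem weight_apply (d : Fin a × Fin n →₀ ℕ) (i : Fin a) :
    (Finsupp.weight wt d) i = ∑ k, d (i, k) := by
  rw [Finsupp.weight_apply, Finsupp.sum_fintype _ _ (by simp), Finset.sum_apply,
    Fintype.sum_prod_type, Finset.sum_eq_single i]
  · simp [wt]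
  · intro j _ hj
    simp [wt, Ne.symm hj]
  · simp

theorem prod_X_eq (c : Fin a → Fin n) :
    ∏ i, (X (i, c i) : Ring' a n) = ∏ i, lf i (Pi.single (c i) 1) := by
  refine Finset.prod_congr rfl fun i _ => ?_
  simp [lf, Fintype.linearCombination_apply_single]

theorem monomial_mem : ∀ (k : ℕ) (d : Fin a × Fin n →₀ ℕ),
    (∀ i, ∑ q, d (i, q) = k) → (monomial d (1 : ℂ) : Ring' a n) ∈ S1 a n ^ k := by
  intro k
  induction k with
  | zero =>
    intro d hd
    have : d = 0 := by
      ext ⟨i, q⟩
      exact Nat.eq_zero_of_le_zero ((Finset.single_le_sum (f := fun q => d (i, q))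
        (fun _ _ => Nat.zero_le _) (Finset.mem_univ q)).trans (hd i).le)
    subst this
    rw [Submodule.pow_zero]
    rw [monomial_zero', map_one]
    exact (Submodule.one_le (P := (1 : Submodule ℂ (Ring' a n)))).1 le_rfl
  | succ k ih =>
    intro d hd
    have hc : ∀ i, ∃ q, 0 < d (i, q) := by
      intro i
      by_contra hne
      push Not at hne
      have := hd i
      rw [Finset.sum_eq_zero (fun q _ => Nat.eq_zero_of_le_zero (hne q))] at this
      omega
    choose c hc using hc
    let e : Fin a × Fin n →₀ ℕ := ∑ i, Finsupp.single (i, c i) 1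
    have he : ∀ i q, e (i, q) = if c i = q then 1 else 0 := by
      intro i q
      simp only [e, Finsupp.finsetSum_apply]
      rw [Finset.sum_eq_single i]
      · simp [Finsupp.single_apply]
      · intro j _ hj
        simp [hj]
      · simp
    have hle : e ≤ d := by
      rintro ⟨i, q⟩
      rw [he]
      split_ifs with h
      · subst h; exact hc i
      · exact Nat.zero_le _
    have hsum : ∀ i, ∑ q, (d - e) (i, q) = k := by
      intro i
      have h1 : ∑ q, (d - e) (i, q) + ∑ q, e (i, q) = k + 1 := by
        rw [← Finset.sum_add_distrib, ← hd i]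
        refine Finset.sum_congr rfl fun q _ => ?_
        rw [Finsupp.tsub_apply]
        exact Nat.sub_add_cancel (hle (i, q))
      have h2 : ∑ q, e (i, q) = 1 := by simp [he]
      omega
    have hmon : (monomial e (1 : ℂ) : Ring' a n) = ∏ i, X (i, c i) := by
      simp only [e, monomial_sum_one]
      rfl
    have h2 : (monomial d (1 : ℂ) : Ring' a n) = monomial (d - e) 1 * monomial e 1 := by
      rw [monomial_mul, tsub_add_cancel_of_le hle, one_mul]
    rw [h2, hmon, prod_X_eq, pow_succ]
    exact Submodule.mul_mem_mul (ih _ hsum) (prod_lf_mem_S1 _)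

theorem mem_S1_pow_of_weight {k : ℕ} {p : Ring' a n}
    (hp : p.IsWeightedHomogeneous wt (cst a k)) : p ∈ S1 a n ^ k := by
  rw [p.as_sum]
  refine Submodule.sum_mem _ fun d hd => ?_
  have h1 : Finsupp.weight wt d = cst a k := hp (mem_support_iff.1 hd)
  have h2 := monomial_mem k d (fun i => by rw [← weight_apply, h1]; rfl)
  have h3 : monomial d (p.coeff d) = p.coeff d • (monomial d (1 : ℂ)) := by simp [smul_monomial]
  rw [h3]
  exact Submodule.smul_mem _ _ h2

/-- The diagonal product of `k` generators of `S1`. -/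
noncomputable def gen (k : ℕ) (u : Fin k → Fin a → (Fin n → ℂ)) : Ring' a n :=
  ∏ l, ∏ i, lf i (u l i)

theorem gen_weight (k : ℕ) (u : Fin k → Fin a → (Fin n → ℂ)) :
    (gen k u).IsWeightedHomogeneous wt (cst a k) := by
  have h := IsWeightedHomogeneous.prod Finset.univ (fun l : Fin k => ∏ i, lf i (u l i))
    (fun _ => cst a 1) (fun l _ => by
      have h := IsWeightedHomogeneous.prod Finset.univ (fun i : Fin a => lf i (u l i))
        (fun i => Pi.single i (1 : ℕ)) (fun i _ => lf_weight i _)
      rwa [Finset.univ_sum_single (fun _ : Fin a => (1 : ℕ))] at h)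
  have e : (∑ _l : Fin k, cst a 1) = cst a k := by ext i; simp [cst]
  rwa [e] at h

theorem gen_mem (k : ℕ) (u : Fin k → Fin a → (Fin n → ℂ)) : gen k u ∈ S1 a n ^ k :=
  mem_S1_pow_of_weight (gen_weight k u)

theorem S1_pow_eq_span (k : ℕ) :
    S1 a n ^ k = Submodule.span ℂ (Set.range (gen k : _ → Ring' a n)) := by
  refine le_antisymm ?_ (Submodule.span_le.2 ?_)
  · rw [S1, Submodule.span_pow]
    refine Submodule.span_mono ?_
    intro p hp
    obtain ⟨f, rfl⟩ := Set.mem_pow.1 hp
    refine ⟨fun l => (f l).2.choose, ?_⟩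
    rw [List.prod_ofFn]
    exact Finset.prod_congr rfl fun l _ => (f l).2.choose_spec
  · rintro _ ⟨u, rfl⟩
    exact gen_mem k u

/-- Elements of row degree at least `a * N` lie in the ideal of `N`-th powers. -/
theorem S1_pow_le_theta_pow (N k : ℕ) (hk : a * N ≤ k) :
    S1 a n ^ k ≤ Submodule.span ℂ {p : Ring' a n |
      ∃ w, ∃ h ∈ S1 a n ^ (k - N), p = theta w ^ N * h} := by
  classical
  by_cases ha : a = 0
  · subst ha
    intro p hp
    refine Submodule.subset_span ⟨0, p, mem_S1_pow_of_weight ?_, by simp [theta]⟩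
    intro d hd
    exact funext fun i => i.elim0
  have hNk : N ≤ k := le_trans (Nat.le_mul_of_pos_left N (Nat.pos_of_ne_zero ha)) hk
  set T := Submodule.span ℂ {p : Ring' a n |
      ∃ w, ∃ h ∈ S1 a n ^ (k - N), p = theta w ^ N * h} with hT
  let J : Ideal (Ring' a n) := Ideal.span (Set.range fun w => theta w ^ N)
  -- the component of an element of the ideal lies in `T`
  have hproj : ∀ c w, weightedHomogeneousComponent wt (cst a k) (c * theta w ^ N) ∈ T := by
    intro c w
    induction c using MvPolynomial.induction_on' with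
    | add p q hp hq => rw [add_mul, map_add]; exact T.add_mem hp hq
    | monomial d r =>
      have hh : (monomial d r * theta w ^ N : Ring' a n).IsWeightedHomogeneous wt
          (Finsupp.weight wt d + N • cst a 1) :=
        (isWeightedHomogeneous_monomial wt d r rfl).mul ((theta_weight w).pow N)
      rw [weightedHomogeneousComponent_of_mem
        ((mem_weightedHomogeneousSubmodule ℂ _ _ _).2 hh)]
      split_ifs with h
      · refine Submodule.subset_span ⟨w, monomial d r, mem_S1_pow_of_weight ?_, mul_comm _ _⟩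
        refine isWeightedHomogeneous_monomial wt d r ?_
        ext i
        have := congrFun h i
        simp [cst] at this ⊢
        omega
      · exact T.zero_mem
  have hJ : ∀ p ∈ J, weightedHomogeneousComponent wt (cst a k) p ∈ T := by
    intro p hp
    obtain ⟨s, rfl⟩ := Finsupp.mem_span_range_iff_exists_finsupp.1 hp
    rw [Finsupp.sum, map_sum]
    exact Submodule.sum_mem _ fun w _ => hproj _ w
  rw [S1_pow_eq_span, Submodule.span_le]
  rintro _ ⟨u, rfl⟩
  have hgen : gen k u ∈ J := by
    let π := Ideal.Quotient.mkₐ ℂ J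
    rw [← Ideal.Quotient.eq_zero_iff_mem]
    change π (gen k u) = 0
    let f : Fin a → ((Fin n → ℂ) →ₗ[ℂ] (Ring' a n ⧸ J)) := fun i => π.toLinearMap ∘ₗ lf i
    have hdm := dedekind_mertens N a f 1 (fun v => by
      rw [mul_one, Finset.prod_pow]
      have : (∏ i, f i v) = π (theta v) := by simp [theta, f]
      rw [this, ← map_pow]
      exact Ideal.Quotient.eq_zero_iff_mem.2 (Ideal.subset_span ⟨v, rfl⟩))
    have hrow : π (gen k u) = ∏ i, ∏ l, f i (u l i) := by
      simp only [gen, map_prod]
      exact Finset.prod_comm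
    rw [hrow]
    let M : MultilinearMap ℂ (fun _ : Fin a => Ring' a n ⧸ J) (Ring' a n ⧸ J) :=
      MultilinearMap.mkPiAlgebra ℂ (Fin a) (Ring' a n ⧸ J)
    have hmem : ∀ i, (∏ l, f i (u l i)) ∈
        Submodule.span ℂ (Set.range fun w => f i w ^ k) := fun i => prod_mem_span_pow (f i) k _
    simp only [Finsupp.mem_span_range_iff_exists_finsupp] at hmem
    choose s hs using hmem
    rw [Finset.prod_congr rfl fun i _ => (hs i).symm]
    simp only [Finsupp.sum]
    rw [Finset.prod_univ_sum]
    refine Finset.sum_eq_zero fun w _ => ?_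
    have h0 := hdm w
    rw [mul_one] at h0
    rw [Finset.prod_smul]
    refine smul_eq_zero_of_right _ ?_
    have hi : ∀ i : Fin a, (a - (i : ℕ)) * N ≤ k :=
      fun i => le_trans (Nat.mul_le_mul_right N (Nat.sub_le a i)) hk
    calc (∏ i : Fin a, f i (w i) ^ k)
        = (∏ i : Fin a, f i (w i) ^ ((a - (i : ℕ)) * N)) *
          ∏ i : Fin a, f i (w i) ^ (k - (a - (i : ℕ)) * N) := by
          rw [← Finset.prod_mul_distrib]
          exact Finset.prod_congr rfl fun i _ => by rw [← pow_add, Nat.add_sub_cancel' (hi i)]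
      _ = 0 := by rw [h0, zero_mul]
  have h := hJ _ hgen
  rwa [weightedHomogeneousComponent_eq_self (gen_weight k u)] at h

end Vale.Agent.P181
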