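import Vale.Agent.P181.Trace

/-!
Induction on the number of points: for `b ≥ (a - 1) ^ 2` every symmetrised element of row degree
`b` is a combination of products of `b` forms `theta`.
-/

open MvPolynomial

namespace Vale.Agent.P181

variable {a n : ℕ}

theorem goodFor_mul_prod {D : ℕ} {U : Fin a → Ring' a n} (hD : a ≤ D + 1) (hU : GoodFor D U) :
    ∀ (j : ℕ) (v : Fin j → (Fin n → ℂ)), GoodFor (D + j) (fun l => U l * ∏ k, lf l (v k)) := by
  intro j
  induction j with
  | zero => intro v; simpa using hU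
  | succ j ih =>
    intro v
    have h := (ih (fun k => v k.castSucc)).step (by omega) (v (Fin.last j))
    simpa [Fin.prod_univ_castSucc, mul_assoc, add_assoc] using h

/-- The embedding of the remaining `k` points after putting point `0` at position `i`. -/
noncomputable def emb {k : ℕ} (i : Fin (k + 1)) : Ring' k n →ₐ[ℂ] Ring' (k + 1) n :=
  rename (Prod.map (fun x => Equiv.swap 0 i x.succ) id)

theorem emb_lf {k : ℕ} (i : Fin (k + 1)) (x : Fin k) (w : Fin n → ℂ) :
    emb i (lf x w) = lf (Equiv.swap 0 i x.succ) w := by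
  simp [emb, lf, Fintype.linearCombination_apply, map_sum, map_smul]

theorem emb_prod {k : ℕ} (i : Fin (k + 1)) (F : Fin (k + 1) → Ring' (k + 1) n) :
    ∏ x : Fin k, F (Equiv.swap 0 i x.succ) = ∏ l ∈ Finset.univ.erase i, F l := by
  refine Finset.prod_bij (fun x _ => Equiv.swap 0 i x.succ) ?_ ?_ ?_ ?_
  · intro x _
    refine Finset.mem_erase.2 ⟨fun h => ?_, Finset.mem_univ _⟩
    have h' : x.succ = Equiv.swap 0 i i := by rw [← Equiv.symm_apply_apply (Equiv.swap 0 i) x.succ, h]; simp
    rw [Equiv.swap_apply_right] at h'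
    exact Fin.succ_ne_zero x h'
  · intro x _ y _ h
    exact Fin.succ_injective _ ((Equiv.swap 0 i).injective h)
  · intro l hl
    have hne : Equiv.swap 0 i l ≠ 0 := by
      intro h
      have h' := congrArg (Equiv.swap 0 i) h
      rw [Equiv.swap_apply_self, Equiv.swap_apply_left] at h'
      exact (Finset.mem_erase.1 hl).1 h'
    exact ⟨(Equiv.swap 0 i l).pred hne, Finset.mem_univ _, by simp⟩
  · intro x _; rfl

/-- Splitting off the image of the first point. -/
theorem sy_gen_succ {k b : ℕ} (u : Fin b → Fin (k + 1) → (Fin n → ℂ)) :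
    sy (gen b u) = ∑ i : Fin (k + 1),
      (∏ l, lf i (u l 0)) * emb i (sy (gen b fun l x => u l x.succ)) := by
  classical
  simp only [sy, LinearMap.sum_apply, AlgHom.toLinearMap_apply, map_sum, Finset.mul_sum]
  rw [← Equiv.sum_comp Equiv.Perm.decomposeFin.symm, Fintype.sum_prod_type]
  refine Finset.sum_congr rfl fun i _ => Finset.sum_congr rfl fun τ _ => ?_
  simp only [gen, map_prod, act_lf, emb_lf, ← Finset.prod_mul_distrib]
  refine Finset.prod_congr rfl fun l _ => ?_
  rw [Fin.prod_univ_succ]
  congr 1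
  · rw [Equiv.Perm.decomposeFin_symm_apply_zero]
  · refine Finset.prod_congr rfl fun x _ => ?_
    rw [Equiv.Perm.decomposeFin_symm_apply_succ]

/-- The symmetrised part of degree `b` consists of combinations of products once
`b ≥ (a - 1) ^ 2`. -/
theorem Rk_le_A1_pow_sq : ∀ (a b : ℕ), (a - 1) ^ 2 ≤ b → Rk a n b ≤ A1 a n ^ b := by
  intro a
  induction a with
  | zero =>
    intro b _
    rw [Rk, S1_pow_eq_span, Submodule.map_span, Submodule.span_le]
    rintro _ ⟨_, ⟨u, rfl⟩, rfl⟩
    have h1 : sy (gen b u) = (1 : Ring' 0 n) ^ b := by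
      simp [sy, gen]
    rw [SetLike.mem_coe, h1]
    exact Submodule.pow_mem_pow _ (show (1 : Ring' 0 n) ∈ A1 0 n from
      Submodule.subset_span ⟨0, by simp [theta]⟩) b
  | succ k ih =>
    intro b hb
    rw [Nat.add_sub_cancel] at hb
    have hkk : k * k ≤ b := by rwa [sq] at hb
    have hkb : k ≤ b := by
      rcases Nat.eq_zero_or_pos k with h | h
      · omega
      · exact (Nat.le_mul_of_pos_left k h).trans hkk
    have hih : (k - 1) ^ 2 ≤ b - k := by
      rcases Nat.eq_zero_or_pos k with h | h
      · simp [h]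
      · obtain ⟨c, rfl⟩ : ∃ c, k = c + 1 := ⟨k - 1, by omega⟩
        have : (c + 1) * (c + 1) = c * c + 2 * c + 1 := by ring
        rw [Nat.add_sub_cancel, sq]
        omega
    let r := Submodule.span ℂ (Set.range (rows : (Fin n → ℂ) → Fin (k + 1) → Ring' (k + 1) n))
    rw [Rk, S1_pow_eq_span, Submodule.map_span, Submodule.span_le]
    rintro _ ⟨_, ⟨u, rfl⟩, rfl⟩
    rw [SetLike.mem_coe, sy_gen_succ]
    let m : Fin (k + 1) → Ring' (k + 1) n := fun i => ∏ l, lf i (u l 0)
    have hm : m ∈ r ^ b := by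
      simp only [r, Submodule.span_pow]
      refine Submodule.subset_span (Set.mem_pow.2 ⟨fun l => ⟨_, ⟨u l 0, rfl⟩⟩, ?_⟩)
      rw [List.prod_ofFn]
      funext i
      simp [m, rows_apply]
    let L : Ring' k n →ₗ[ℂ] Ring' (k + 1) n :=
      ∑ i, (LinearMap.mulLeft ℂ (m i)) ∘ₗ (emb i).toLinearMap
    have hL : ∀ h, L h = ∑ i, m i * emb i h := fun h => by simp [L, LinearMap.sum_apply]
    suffices hsub : Rk k n b ≤ (A1 (k + 1) n ^ b).comap L by
      have := hsub ⟨gen b fun l x => u l x.succ, gen_mem b _, rfl⟩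
      rwa [Submodule.mem_comap, hL] at this
    refine (Rk_le k b hkk).trans (Submodule.span_le.2 ?_)
    rintro _ ⟨e, h, hh, rfl⟩
    have hh' := ih (b - k) hih hh
    have hsub : A1 k n ^ (b - k) ≤
        ((A1 (k + 1) n ^ b).comap L).comap (LinearMap.mulLeft ℂ (theta e ^ k)) := by
      rw [A1, Submodule.span_pow, Submodule.span_le]
      intro p hp
      obtain ⟨f, rfl⟩ := Set.mem_pow.1 hp
      choose v hv using fun l => (f l).2
      have hU := goodFor_mul_prod (a := k + 1) (D := k) (U := fun l => lf l e ^ k) le_rfl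
        (goodFor_pow k e) (b - k) v
      rw [Nat.add_sub_cancel' hkb] at hU
      have := hU m hm
      rw [SetLike.mem_coe, Submodule.mem_comap, LinearMap.mulLeft_apply, Submodule.mem_comap, hL]
      rw [trU_apply] at this
      convert this using 1
      refine Finset.sum_congr rfl fun i _ => ?_
      congr 1
      rw [List.prod_ofFn]
      simp only [← hv, theta, map_mul, map_pow, map_prod, emb_lf]
      rw [Finset.prod_mul_distrib, Finset.prod_pow, ← emb_prod i (fun l => lf l e),
        ← emb_prod i (fun l => ∏ q, lf l (v q)), Finset.prod_comm]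
    exact hsub hh'

end Vale.Agent.P181
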