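import Vale.Agent.P181.Graded
import Vale.Agent.P181.Chart

open MvPolynomial

namespace Vale.Agent.P181

variable {a n : ℕ}

/-- Relabel the vectors. -/
noncomputable def act (π : Equiv.Perm (Fin a)) : Ring' a n →ₐ[ℂ] Ring' a n :=
  rename (Prod.map π id)

/-- Sum over all relabellings. -/
noncomputable def sy : Ring' a n →ₗ[ℂ] Ring' a n :=
  ∑ π : Equiv.Perm (Fin a), (act π).toLinearMap

theorem act_lf (π : Equiv.Perm (Fin a)) (i : Fin a) (w : Fin n → ℂ) :
    act π (lf i w) = lf (π i) w := by
  simp [act, lf, Fintype.linearCombination_apply, map_sum, map_smul]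

theorem act_theta (π : Equiv.Perm (Fin a)) (w : Fin n → ℂ) :
    act π (theta w : Ring' a n) = theta w := by
  simp only [theta, map_prod, act_lf]
  exact Equiv.prod_comp π (fun i => lf i w)

theorem sy_theta_pow_mul (w : Fin n → ℂ) (N : ℕ) (h : Ring' a n) :
    sy (theta w ^ N * h) = theta w ^ N * sy h := by
  simp only [sy, LinearMap.sum_apply, AlgHom.toLinearMap_apply, map_mul, map_pow, act_theta,
    Finset.mul_sum]

variable (a n) in
/-- The symmetrised part of row degree `k`. -/
noncomputable def Rk (k : ℕ) : Submodule ℂ (Ring' a n) := (S1 a n ^ k).map sy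

/-- If a power of `theta` is available, it can be pulled out. -/
theorem Rk_le (N k : ℕ) (hk : a * N ≤ k) :
    Rk a n k ≤ Submodule.span ℂ {p : Ring' a n |
      ∃ w, ∃ h ∈ Rk a n (k - N), p = theta w ^ N * h} := by
  rw [Rk, Submodule.map_le_iff_le_comap]
  refine (S1_pow_le_theta_pow N k hk).trans (Submodule.span_le.2 ?_)
  rintro _ ⟨w, h, hh, rfl⟩
  exact Submodule.subset_span ⟨w, sy h, ⟨h, hh, rfl⟩, sy_theta_pow_mul w N h⟩

theorem Rk_le_low : ∀ j : ℕ, Rk a n (a - 1 + j) ≤ A1 a n ^ j * Rk a n (a - 1) := by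
  intro j
  induction j with
  | zero => simp
  | succ j ih =>
    refine (Rk_le 1 _ (by omega)).trans (Submodule.span_le.2 ?_)
    rintro _ ⟨w, h, hh, rfl⟩
    have e : a - 1 + (j + 1) - 1 = a - 1 + j := by omega
    rw [e] at hh
    rw [pow_one, pow_succ', mul_assoc]
    exact Submodule.mul_mem_mul (theta_mem_A1 w) (ih hh)

theorem lf_ne_zero (i : Fin a) {e : Fin n → ℂ} (he : e ≠ 0) : lf i e ≠ 0 := by
  obtain ⟨k, hk⟩ := Function.ne_iff.1 he
  intro h
  have h1 := congrArg (MvPolynomial.eval (Pi.single (i, k) (1 : ℂ))) h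
  simp [lf, Fintype.linearCombination_apply, map_sum, Pi.single_apply] at h1
  exact hk h1

/-- Multiplication by a power of `theta` moves symmetrised elements into the products. -/
theorem theta_pow_mul_Rk (k : ℕ) (e : Fin n → ℂ) (h : Ring' a n) (hh : h ∈ Rk a n k) :
    theta e ^ ((a - 1) * k) * h ∈ A1 a n ^ ((a - 1) * k + k) ∨ a = 0 := by
  classical
  rcases Nat.eq_zero_or_pos a with ha | ha
  · exact Or.inr ha
  left
  have hexp : (a - 1) * k + k = a * k := by
    obtain ⟨b, rfl⟩ : ∃ b, a = b + 1 := ⟨a - 1, by omega⟩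
    simp [Nat.succ_mul]
  rcases Nat.eq_zero_or_pos ((a - 1) * k) with hz | hz
  · rcases Nat.eq_zero_or_pos k with rfl | hk
    · simp only [Rk, Submodule.pow_zero, Submodule.one_eq_span, Submodule.map_span,
        Set.image_singleton, Submodule.mem_span_singleton] at hh
      obtain ⟨c, rfl⟩ := hh
      simp only [Nat.mul_zero, pow_zero, one_mul, Nat.add_zero, Submodule.pow_zero,
        Submodule.one_eq_span]
      refine Submodule.smul_mem _ _ ?_
      simp only [sy, LinearMap.sum_apply, AlgHom.toLinearMap_apply, map_one, Finset.sum_const]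
      exact Submodule.smul_of_tower_mem _ _ (Submodule.subset_span rfl)
    · have ha1 : a = 1 := by
        rcases Nat.mul_eq_zero.1 hz with h1 | h1 <;> omega
      subst ha1
      obtain ⟨p, hp, rfl⟩ := hh
      have hs : ∀ q : Ring' 1 n, sy q = q := by
        intro q
        simp [sy, act, Subsingleton.elim (Prod.map (1 : Equiv.Perm (Fin 1)) id) id,
          Fintype.sum_subsingleton _ (1 : Equiv.Perm (Fin 1))]
      rw [hs, hz, pow_zero, one_mul, zero_add]
      have : S1 1 n ≤ A1 1 n := by
        refine Submodule.span_le.2 ?_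
        rintro _ ⟨u, rfl⟩
        refine Submodule.subset_span ⟨u 0, ?_⟩
        simp [theta]
      exact pow_le_pow_left' this k hp
  rcases eq_or_ne e 0 with rfl | he
  · have : (theta (0 : Fin n → ℂ) : Ring' a n) = 0 := by
      simp only [theta, map_zero]
      exact Finset.prod_eq_zero (Finset.mem_univ ⟨0, ha⟩) rfl
    rw [this, zero_pow hz.ne', zero_mul]
    exact Submodule.zero_mem _
  let K := FractionRing (Ring' a n)
  let ι : Ring' a n →ₐ[ℂ] K := IsScalarTower.toAlgHom ℂ (Ring' a n) K
  have hinj : Function.Injective ι := IsFractionRing.injective (Ring' a n) K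
  let z : Fin a → K := fun i => ι (lf i e)
  have hzne : ∀ i, z i ≠ 0 := fun i h0 => lf_ne_zero i he (hinj (h0.trans (map_zero ι).symm))
  let r : (Fin n → ℂ) →ₗ[ℂ] (Fin a → K) := LinearMap.pi fun i =>
    (LinearMap.mulRight ℂ (z i)⁻¹) ∘ₗ ι.toLinearMap ∘ₗ lf i
  have hr : ∀ w i, r w i = ι (lf i w) * (z i)⁻¹ := fun w i => rfl
  let t : K := ι (theta e)
  let A : Submodule ℂ K := (A1 a n).map ι.toLinearMap
  have hA : ∀ w, t * ∏ i, (1 + r w i) ∈ A := by
    intro w
    refine ⟨theta (e + w), theta_mem_A1 _, ?_⟩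
    change ι (theta (e + w)) = _
    simp only [t, theta, map_prod, ← Finset.prod_mul_distrib]
    refine Finset.prod_congr rfl fun i _ => ?_
    rw [hr, map_add, map_add]
    change z i + _ = z i * _
    rw [mul_add, mul_one, mul_comm (z i), inv_mul_cancel_right₀ (hzne i)]
  have main : Rk a n k ≤ (A1 a n ^ (a * k)).comap (LinearMap.mulLeft ℂ (theta e ^ ((a - 1) * k))) := by
    rw [Rk, S1_pow_eq_span, Submodule.map_span, Submodule.span_le]
    rintro _ ⟨_, ⟨u, rfl⟩, rfl⟩
    let m : Fin a → (Fin a → K) := fun i => ∏ l : Fin k, r (u l i)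
    have hm : ∀ i, m i ∈ Submodule.span ℂ (Set.range r) ^ k := by
      intro i
      rw [Submodule.span_pow]
      refine Submodule.subset_span (Set.mem_pow.2 ⟨fun l => ⟨_, ⟨u l i, rfl⟩⟩, ?_⟩)
      exact List.prod_ofFn
    have h1 := inj_sum_mem A t r hA a (fun _ => k) m hm
    simp only [Finset.sum_const, Finset.card_univ, Fintype.card_fin, smul_eq_mul] at h1
    rw [mem_filt] at h1
    have hgen : ι (sy (gen k u)) = t ^ k *
        ∑ φ : Fin a → Fin a, if Function.Injective φ then ∏ l, m l (φ l) else 0 := by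
      rw [sy, LinearMap.sum_apply, map_sum, Finset.mul_sum]
      simp only [mul_ite, mul_zero]
      rw [← Finset.sum_filter]
      refine Finset.sum_bij (fun π _ => (π : Fin a → Fin a)) ?_ ?_ ?_ ?_
      · intro π _; simpa using π.injective
      · intro π _ π' _ h; exact Equiv.coe_fn_injective h
      · intro φ hφ
        simp only [Finset.mem_filter, Finset.mem_univ, true_and] at hφ
        exact ⟨Equiv.ofBijective φ ((Finite.injective_iff_bijective).1 hφ), Finset.mem_univ _, rfl⟩
      · intro π _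
        have h3 : t = ∏ i, z (π i) := by
          rw [Equiv.prod_comp π z]
          simp [t, theta, z]
        simp only [gen, AlgHom.toLinearMap_apply, map_prod, act_lf, m, Finset.prod_apply]
        have h4 : t ^ k = ∏ _l : Fin k, t := by simp
        rw [h4, h3, Finset.prod_comm (s := (Finset.univ : Finset (Fin a)))
          (t := (Finset.univ : Finset (Fin k))), ← Finset.prod_mul_distrib]
        refine Finset.prod_congr rfl fun l _ => ?_
        rw [← Finset.prod_mul_distrib]
        refine Finset.prod_congr rfl fun i _ => ?_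
        rw [hr, mul_comm (z (π i)), inv_mul_cancel_right₀ (hzne (π i))]
    change theta e ^ ((a - 1) * k) * sy (gen k u) ∈ A1 a n ^ (a * k)
    have h2 : ι (theta e ^ ((a - 1) * k) * sy (gen k u)) ∈ A ^ (a * k) := by
      rw [map_mul, map_pow, hgen, ← mul_assoc, ← pow_add, hexp]
      exact h1
    simp only [A, ← Submodule.map_pow] at h2
    obtain ⟨q, hq, hq2⟩ := h2
    rwa [← hinj hq2]
  rw [hexp]
  exact main hh

/-- The symmetrised part of degree `b` consists of combinations of products, for large `b`. -/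
theorem Rk_le_A1_pow (ha : 1 ≤ a) (b : ℕ) (hb : a * (a - 1) ^ 2 ≤ b) :
    Rk a n b ≤ A1 a n ^ b := by
  obtain ⟨c, rfl⟩ : ∃ c, a = c + 1 := ⟨a - 1, by omega⟩
  simp only [Nat.add_sub_cancel] at hb
  have h1 : c * c + c ≤ b := by
    have : c ≤ c * (c * c) := by
      rcases Nat.eq_zero_or_pos c with rfl | hc
      · simp
      · exact Nat.le_mul_of_pos_right c (Nat.mul_pos hc hc)
    calc c * c + c ≤ c * c + c * (c * c) := by omega
      _ = (c + 1) * c ^ 2 := by ring
      _ ≤ b := hb
  refine (Rk_le (c * c) b (by rw [sq] at hb; exact hb)).trans (Submodule.span_le.2 ?_)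
  rintro _ ⟨w, h, hh, rfl⟩
  obtain ⟨j, hj⟩ : ∃ j, b - c * c = c + j := ⟨b - c * c - c, by omega⟩
  rw [hj] at hh
  have h3 := Rk_le_low (a := c + 1) (n := n) j (by simpa using hh)
  simp only [Nat.add_sub_cancel] at h3
  have h4 : A1 (c + 1) n ^ j * Rk (c + 1) n c ≤
      (A1 (c + 1) n ^ b).comap (LinearMap.mulLeft ℂ (theta w ^ (c * c))) := by
    rw [Submodule.mul_le]
    intro x hx y hy
    have h5 := (theta_pow_mul_Rk c w y hy).resolve_right (Nat.succ_ne_zero c)
    simp only [Nat.add_sub_cancel] at h5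
    rw [Submodule.mem_comap, LinearMap.mulLeft_apply]
    rw [mul_left_comm, show b = j + (c * c + c) by omega, pow_add]
    exact Submodule.mul_mem_mul hx h5
  exact h4 (h3)

end Vale.Agent.P181
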