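import Mathlib

namespace Vale.Agent.P181

/-- The space `Sym^a (Sym^b V)`, by Mathlib's `SymmetricPower`. -/
def SymSym (a b : ℕ) (V : Type) [AddCommGroup V] [Module ℂ V] : Type :=
  SymmetricPower ℂ (Fin a) (SymmetricPower ℂ (Fin b) V)

noncomputable instance instAddCommGroupSymSym (a b : ℕ) (V : Type) [AddCommGroup V]
    [Module ℂ V] : AddCommGroup (SymSym a b V) :=
  @SymmetricPower.instAddCommGroup (Fin a) ℂ Complex.commRing
    (SymmetricPower ℂ (Fin b) V) _ _

noncomputable instance instModuleSymSym (a b : ℕ) (V : Type) [AddCommGroup V]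
    [Module ℂ V] : Module ℂ (SymSym a b V) :=
  @SymmetricPower.module ℂ (Fin a) Complex.instCommSemiring (SymmetricPower ℂ (Fin b) V) _ _

/-- The product over `i` of the products `v_i1 ... v_ib`. -/
noncomputable def prd2 {a b : ℕ} {V : Type} [AddCommGroup V] [Module ℂ V]
    (v : Fin a → Fin b → V) : SymSym a b V :=
  SymmetricPower.tprod ℂ fun i => SymmetricPower.tprod ℂ (v i)

end Vale.Agent.P181
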