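import Vale.Agent.P181.Surj

/-!
Sums over the position of one distinguished point, and the resulting induction on the number of
points: every symmetrised element of row degree `b ≥ (a - 1) ^ 2` is a combination of products.
-/

open MvPolynomial

namespace Vale.Agent.P181

variable {a n : ℕ}

/-- The values of a linear form on all the vectors. -/
noncomputable def rows : (Fin n → ℂ) →ₗ[ℂ] (Fin a → Ring' a n) := LinearMap.pi fun i => lf i

theorem rows_apply (w : Fin n → ℂ) (i : Fin a) : rows w i = lf i w := rfl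

/-- Sum over the position of a distinguished point, the other points carrying `U`. -/
noncomputable def trU (U : Fin a → Ring' a n) : (Fin a → Ring' a n) →ₗ[ℂ] Ring' a n :=
  ∑ i, (LinearMap.mulRight ℂ (∏ l ∈ Finset.univ.erase i, U l)) ∘ₗ LinearMap.proj i

theorem trU_apply (U m : Fin a → Ring' a n) :
    trU U m = ∑ i, m i * ∏ l ∈ Finset.univ.erase i, U l := by
  simp [trU, LinearMap.sum_apply]

/-- All elements of degree `D` in the distinguished point give combinations of products. -/
def GoodFor (D : ℕ) (U : Fin a → Ring' a n) : Prop :=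
  ∀ m ∈ Submodule.span ℂ (Set.range (rows : (Fin n → ℂ) → Fin a → Ring' a n)) ^ D,
    trU U m ∈ A1 a n ^ D

theorem goodFor_of_pow {D : ℕ} {U : Fin a → Ring' a n}
    (h : ∀ z, trU U (fun i => lf i z ^ D) ∈ A1 a n ^ D) : GoodFor D U := by
  have key : Submodule.span ℂ (Set.range (rows : (Fin n → ℂ) → Fin a → Ring' a n)) ^ D ≤
      (A1 a n ^ D).comap (trU U) := by
    rw [Submodule.span_pow, Submodule.span_le]
    intro p hp
    obtain ⟨f, rfl⟩ := Set.mem_pow.1 hp
    choose u hu using fun l => (f l).2
    rw [List.prod_ofFn]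
    simp only [← hu]
    refine Submodule.span_le.2 ?_ (prod_mem_span_pow rows D u)
    rintro _ ⟨w, rfl⟩
    exact h w
  exact fun m hm => key hm

/-- Adding an arbitrary linear factor. -/
theorem GoodFor.step {D : ℕ} {U : Fin a → Ring' a n} (hD : a ≤ D + 1) (hU : GoodFor D U)
    (v : Fin n → ℂ) : GoodFor (D + 1) (fun l => U l * lf l v) := by
  classical
  refine goodFor_of_pow fun z => ?_
  let m : ℕ → (Fin a → Ring' a n) := fun s i => lf i z ^ (D - s) * lf i v ^ s
  have hm : ∀ s, s ≤ D → m s ∈
      Submodule.span ℂ (Set.range (rows : (Fin n → ℂ) → Fin a → Ring' a n)) ^ D := by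
    intro s hs
    have e : D = (D - s) + s := by omega
    have h1 : ∀ (w : Fin n → ℂ) (k : ℕ), (fun i => lf i w ^ k : Fin a → Ring' a n) ∈
        Submodule.span ℂ (Set.range (rows : (Fin n → ℂ) → Fin a → Ring' a n)) ^ k := fun w k =>
      Submodule.pow_mem_pow _ (show rows w ∈ Submodule.span ℂ (Set.range (rows : (Fin n → ℂ) → Fin a → Ring' a n)) from Submodule.subset_span ⟨w, rfl⟩) k
    rw [e, pow_add]
    have e2 : D - s + s - s = D - s := by omega
    simp only [m]
    have := Submodule.mul_mem_mul (h1 z (D - s)) (h1 v s)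
    exact this
  let G : Fin a → Polynomial (Ring' a n) := fun i =>
    ∏ l ∈ Finset.univ.erase i, (Polynomial.C (lf l v) + Polynomial.X * Polynomial.C (lf l z))
  let Θ : Polynomial (Ring' a n) := ∏ l, (Polynomial.C (lf l v) + Polynomial.X * Polynomial.C (lf l z))
  have hΘ : ∀ s, Θ.coeff s ∈ A1 a n := by
    refine coeff_mem_of_eval_mem _ Θ fun c => ?_
    have e : Θ.eval (algebraMap ℂ (Ring' a n) c) = theta (v + c • z) := by
      simp only [Θ, theta, Polynomial.eval_prod, map_add, map_smul]
      refine Finset.prod_congr rfl fun l _ => ?_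
      simp [Algebra.smul_def]
      ring
    rw [e]
    exact theta_mem_A1 _
  have hmem : ∑ s ∈ Finset.range a, (-1 : ℂ) ^ s • (trU U (m s) * Θ.coeff (s + 1))
      ∈ A1 a n ^ (D + 1) := by
    refine Submodule.sum_mem _ fun s hs => Submodule.smul_mem _ _ ?_
    rw [Finset.mem_range] at hs
    rw [pow_succ]
    exact Submodule.mul_mem_mul (hU _ (hm s (by omega))) (hΘ _)
  have hrow : ∀ i : Fin a, ∑ s ∈ Finset.range a,
      (-1 : Ring' a n) ^ s * (m s i * Θ.coeff (s + 1))
        = lf i z ^ (D + 1) * ∏ l ∈ Finset.univ.erase i, lf l v := by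
    intro i
    obtain ⟨d, hd⟩ : ∃ d, a = d + 1 := ⟨a - 1, by have := i.isLt; omega⟩
    have hΘi : Θ = (Polynomial.C (lf i v) + Polynomial.X * Polynomial.C (lf i z)) * G i :=
      (Finset.mul_prod_erase Finset.univ
        (fun l => Polynomial.C (lf l v) + Polynomial.X * Polynomial.C (lf l z))
        (Finset.mem_univ i)).symm
    have hc : ∀ s, Θ.coeff (s + 1) = lf i v * (G i).coeff (s + 1) + lf i z * (G i).coeff s := by
      intro s
      rw [hΘi, add_mul, Polynomial.coeff_add, mul_assoc, Polynomial.coeff_C_mul,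
        Polynomial.coeff_X_mul, Polynomial.coeff_C_mul]
    have hdeg : (G i).coeff (d + 1) = 0 := by
      refine Polynomial.coeff_eq_zero_of_natDegree_lt ?_
      refine Nat.lt_succ_of_le ((Polynomial.natDegree_prod_le _ _).trans ?_)
      calc _ ≤ ∑ _l ∈ Finset.univ.erase i, 1 := Finset.sum_le_sum fun l _ => by compute_degree
        _ = d := by simp [Finset.card_erase_of_mem, hd]
    have h0 : (G i).coeff 0 = ∏ l ∈ Finset.univ.erase i, lf l v := by
      simp [G, Polynomial.coeff_zero_eq_eval_zero, Polynomial.eval_prod]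
    have htel : ∀ k, k ≤ d + 1 →
        ∑ s ∈ Finset.range k, (-1 : Ring' a n) ^ s * (m s i * Θ.coeff (s + 1))
          = lf i z ^ (D + 1) * (G i).coeff 0
            - (-1) ^ k * (lf i z ^ (D + 1 - k) * lf i v ^ k * (G i).coeff k) := by
      intro k
      induction k with
      | zero => intro _; simp
      | succ k ih =>
        intro hk
        rw [Finset.sum_range_succ, ih (by omega), hc]
        simp only [m]
        rw [show D + 1 - k = (D - k) + 1 by omega, show D + 1 - (k + 1) = D - k by omega]
        ring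
    have := htel (d + 1) le_rfl
    rw [hdeg, h0] at this
    simpa [hd] using this
  have heq : trU (fun l => U l * lf l v) (fun i => lf i z ^ (D + 1)) =
      ∑ s ∈ Finset.range a, (-1 : ℂ) ^ s • (trU U (m s) * Θ.coeff (s + 1)) := by
    simp only [trU_apply, Finset.sum_mul, Finset.smul_sum]
    rw [Finset.sum_comm]
    refine Finset.sum_congr rfl fun i _ => ?_
    rw [Finset.prod_mul_distrib, mul_left_comm, ← hrow i, Finset.mul_sum]
    refine Finset.sum_congr rfl fun s _ => ?_
    rw [Algebra.smul_def, map_pow, map_neg, map_one]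
    ring
  rw [heq]
  exact hmem

/-- A single chart with multiplicity `d`. -/
theorem goodFor_pow (d : ℕ) (e : Fin n → ℂ) :
    GoodFor d (fun l : Fin a => lf l e ^ d) := by
  classical
  refine goodFor_of_pow fun z => ?_
  rw [trU_apply]
  rcases Nat.eq_zero_or_pos a with ha | ha
  · subst ha; simp
  rcases eq_or_ne e 0 with rfl | he
  · rcases Nat.eq_zero_or_pos d with rfl | hd
    · simp only [pow_zero, Finset.prod_const_one, mul_one, Finset.sum_const, Finset.card_univ]
      exact Submodule.smul_of_tower_mem _ _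
        ((Submodule.one_le (P := (1 : Submodule ℂ (Ring' a n)))).1 le_rfl)
    · by_cases h1 : a = 1
      · subst h1
        simp only [Finset.univ_unique, Finset.sum_singleton, Finset.erase_singleton,
          Finset.prod_empty, mul_one]
        exact Submodule.pow_mem_pow _ (show lf default z ∈ A1 1 n from Submodule.subset_span ⟨z, by simp [theta]⟩) d
      · refine Submodule.sum_mem _ fun i _ => ?_
        have : ∃ l, l ∈ Finset.univ.erase i := by
          have : Nontrivial (Fin a) := Fin.nontrivial_iff_two_le.2 (by omega)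
          obtain ⟨l, hl⟩ := exists_ne i
          exact ⟨l, Finset.mem_erase.2 ⟨hl, Finset.mem_univ _⟩⟩
        obtain ⟨l, hl⟩ := this
        rw [Finset.prod_eq_zero hl (by simp [zero_pow hd.ne']), mul_zero]
        exact Submodule.zero_mem _
  let K := FractionRing (Ring' a n)
  let ι : Ring' a n →ₐ[ℂ] K := IsScalarTower.toAlgHom ℂ (Ring' a n) K
  have hinj : Function.Injective ι := IsFractionRing.injective (Ring' a n) K
  let x : Fin a → K := fun i => ι (lf i e)
  have hxne : ∀ i, x i ≠ 0 := fun i h0 => lf_ne_zero i he (hinj (h0.trans (map_zero ι).symm))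
  let r : (Fin n → ℂ) →ₗ[ℂ] (Fin a → K) := LinearMap.pi fun i =>
    (LinearMap.mulRight ℂ (x i)⁻¹) ∘ₗ ι.toLinearMap ∘ₗ lf i
  have hr : ∀ w i, r w i = ι (lf i w) * (x i)⁻¹ := fun w i => rfl
  let t : K := ι (theta e)
  let A : Submodule ℂ K := (A1 a n).map ι.toLinearMap
  have hA : ∀ w, t * ∏ i, (1 + r w i) ∈ A := by
    intro w
    refine ⟨theta (e + w), theta_mem_A1 _, ?_⟩
    change ι (theta (e + w)) = _
    simp only [t, theta, map_prod, ← Finset.prod_mul_distrib]
    refine Finset.prod_congr rfl fun i _ => ?_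
    rw [hr, map_add, map_add]
    change x i + _ = x i * _
    rw [mul_add, mul_one, mul_comm (x i), inv_mul_cancel_right₀ (hxne i)]
  have h1 := psum_pow_mem A t r hA d z
  rw [mem_filt] at h1
  have h2 : ι (∑ i, lf i z ^ d * ∏ l ∈ Finset.univ.erase i, lf l e ^ d) ∈ A ^ d := by
    convert h1 using 1
    rw [map_sum, Finset.mul_sum]
    refine Finset.sum_congr rfl fun i _ => ?_
    have e1 : ι (∏ l ∈ Finset.univ.erase i, lf l e ^ d) * x i ^ d = t ^ d := by
      simp only [map_prod, map_pow, t, theta, ← Finset.prod_pow]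
      exact Finset.prod_erase_mul Finset.univ (fun l => ι (lf l e) ^ d) (Finset.mem_univ i)
    rw [map_mul, map_pow, hr, mul_pow, ← e1, inv_pow, mul_mul_mul_comm,
      mul_inv_cancel₀ (pow_ne_zero d (hxne i)), mul_one, mul_comm]
  simp only [A, ← Submodule.map_pow] at h2
  obtain ⟨q, hq, hq2⟩ := h2
  rwa [← hinj hq2]

end Vale.Agent.P181
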