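import Vale.Agent.P181.Surj
import Vale.Agent.P181.Defs

open TensorProduct

namespace Vale.Agent.P181

variable {a b n : ℕ} {V : Type} [AddCommGroup V] [Module ℂ V]

/-- The functional `v_1 ... v_k ↦ Σ_σ Π w_{σ l} (v_l)`. -/
noncomputable def symSum {k : ℕ} (w : Fin k → Module.Dual ℂ V) :
    SymmetricPower ℂ (Fin k) V →ₗ[ℂ] ℂ :=
  symLift (∑ σ : Equiv.Perm (Fin k),
      (MultilinearMap.mkPiAlgebra ℂ (Fin k) ℂ).compLinearMap fun l => w (σ l))
    (fun e v => by
      simp only [sum_apply, MultilinearMap.compLinearMap_apply,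
        MultilinearMap.mkPiAlgebra_apply]
      rw [← Equiv.sum_comp (Equiv.mulRight e)]
      refine Finset.sum_congr rfl fun σ _ => ?_
      exact Equiv.prod_comp e fun l => w (σ l) (v l))

theorem symSum_tprod {k : ℕ} (w : Fin k → Module.Dual ℂ V) (v : Fin k → V) :
    symSum w (SymmetricPower.tprod ℂ v) = ∑ σ : Equiv.Perm (Fin k), ∏ l, w (σ l) (v l) := by
  rw [symSum, symLift_tprod]
  simp [sum_apply]

/-- The nested functional. -/
noncomputable def nest (W : Fin a → Fin b → Module.Dual ℂ V) :
    SymmetricPower ℂ (Fin a) (SymmetricPower ℂ (Fin b) V) →ₗ[ℂ] ℂ :=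
  symSum fun i => symSum (W i)

/-- A product of products. -/
noncomputable def pure2 (v : Fin a → Fin b → V) :
    SymmetricPower ℂ (Fin a) (SymmetricPower ℂ (Fin b) V) :=
  SymmetricPower.tprod ℂ fun i => SymmetricPower.tprod ℂ (v i)

theorem nest_pure2 (W : Fin a → Fin b → Module.Dual ℂ V) (v : Fin a → Fin b → V) :
    nest W (pure2 v) = ∑ π : Equiv.Perm (Fin a),
      ∑ σ : Fin a → Equiv.Perm (Fin b), ∏ i, ∏ l, W (π i) (σ i l) (v i l) := by
  simp only [nest, pure2, symSum_tprod, Fintype.prod_sum]

theorem span_pure2 :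
    Submodule.span ℂ (Set.range (pure2 (V := V) (a := a) (b := b))) = ⊤ := by
  classical
  rw [eq_top_iff, ← SymmetricPower.span_tprod_eq_top, Submodule.span_le]
  rintro _ ⟨z, rfl⟩
  have hz : ∀ i, z i ∈ Submodule.span ℂ
      (Set.range (SymmetricPower.tprod ℂ (ι := Fin b) (M := V))) := fun i => by
    rw [SymmetricPower.span_tprod_eq_top]; trivial
  simp only [Finsupp.mem_span_range_iff_exists_finsupp] at hz
  choose c hc using hz
  rw [← funext hc]
  simp only [Finsupp.sum]
  rw [MultilinearMap.map_sum_finset]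
  refine Submodule.sum_mem _ fun r _ => ?_
  rw [MultilinearMap.map_smul_univ]
  exact Submodule.smul_mem _ _ (Submodule.subset_span ⟨r, rfl⟩)

variable (e : Module.Basis (Fin n) ℂ V)

theorem pure2_expand (v : Fin a → Fin b → V) :
    pure2 v = ∑ r : Fin a → Fin b → Fin n,
      (∏ i, ∏ l, e.coord (r i l) (v i l)) • pure2 (fun i l => e (r i l)) := by
  classical
  have h1 : ∀ i, SymmetricPower.tprod ℂ (v i) = ∑ r : Fin b → Fin n,
      (∏ l, e.coord (r l) (v i l)) • SymmetricPower.tprod ℂ (fun l => e (r l)) := by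
    intro i
    conv_lhs => rw [show v i = fun l => ∑ q, e.coord q (v i l) • e q from
      funext fun l => (e.sum_repr (v i l)).symm]
    rw [MultilinearMap.map_sum]
    exact Finset.sum_congr rfl fun r _ => MultilinearMap.map_smul_univ _ _ _
  simp only [pure2]
  rw [funext h1, MultilinearMap.map_sum]
  exact Finset.sum_congr rfl fun r _ => MultilinearMap.map_smul_univ _ _ _

/-- Re-indexing of the index functions. -/
def reindexIdx {κ : Type} (π : Equiv.Perm (Fin a)) (σ : Fin a → Equiv.Perm (Fin b)) :
    (Fin a → Fin b → κ) ≃ (Fin a → Fin b → κ) where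
  toFun f := fun i l => f (π i) (σ i l)
  invFun f := fun i l => f (π.symm i) ((σ (π.symm i)).symm l)
  left_inv f := by funext i l; simp
  right_inv f := by funext i l; simp

theorem sum_nest_smul {N : Type} [AddCommGroup N] [Module ℂ N]
    (G : (Fin a → Fin b → Fin n) → N) (v : Fin a → Fin b → V) :
    ∑ r, nest (fun i l => e.coord (r i l)) (pure2 v) • G r
      = ∑ π : Equiv.Perm (Fin a), ∑ σ : Fin a → Equiv.Perm (Fin b),
          ∑ r, (∏ i, ∏ l, e.coord (r i l) (v i l)) • G ((reindexIdx π σ).symm r) := by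
  simp only [nest_pure2, Finset.sum_smul]
  rw [Finset.sum_comm]
  refine Finset.sum_congr rfl fun π _ => ?_
  rw [Finset.sum_comm]
  refine Finset.sum_congr rfl fun σ _ => ?_
  rw [← Equiv.sum_comp (reindexIdx π σ) (fun r => (∏ i, ∏ l, e.coord (r i l) (v i l)) •
    G ((reindexIdx π σ).symm r))]
  simp only [Equiv.symm_apply_apply]
  rfl

theorem pure2_reindex (w : Fin a → Fin b → V) (π : Equiv.Perm (Fin a))
    (σ : Fin a → Equiv.Perm (Fin b)) :
    pure2 ((reindexIdx π σ).symm w) = pure2 w := by
  simp only [pure2, reindexIdx, Equiv.coe_fn_symm_mk]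
  have h : ∀ i, SymmetricPower.tprod ℂ (fun l => w (π.symm i) ((σ (π.symm i)).symm l))
      = SymmetricPower.tprod ℂ (w (π.symm i)) := fun i => SymmetricPower.tprod_equiv _ _
  rw [funext h]
  exact SymmetricPower.tprod_equiv π.symm fun i => SymmetricPower.tprod ℂ (w i)

/-- The canonical map, written with a basis. -/
noncomputable def psi :
    SymmetricPower ℂ (Fin a) (SymmetricPower ℂ (Fin b) V) →ₗ[ℂ]
      SymmetricPower ℂ (Fin b) (SymmetricPower ℂ (Fin a) V) :=
  ((a.factorial : ℂ)⁻¹) • ∑ r : Fin a → Fin b → Fin n,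
    (nest fun i l => e.coord (r i l)).smulRight (pure2 fun j i => e (r i j))

theorem psi_pure2 (v : Fin a → Fin b → V) :
    psi e (pure2 v) = ∑ σ : Fin a → Equiv.Perm (Fin b), pure2 (fun j i => v i (σ i j)) := by
  classical
  have key : ∀ (π : Equiv.Perm (Fin a)) (σ : Fin a → Equiv.Perm (Fin b)),
      (∑ r, (∏ i, ∏ l, e.coord (r i l) (v i l)) •
        pure2 (fun j i => e ((reindexIdx π σ).symm r i j)))
      = pure2 (fun j i => v i ((σ i).symm j)) := by
    intro π σ
    have h1 : ∀ r : Fin a → Fin b → Fin n,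
        pure2 (fun j i => e ((reindexIdx π σ).symm r i j))
          = pure2 (fun j i => e (r i ((σ i).symm j))) := by
      intro r
      simp only [pure2, reindexIdx, Equiv.coe_fn_symm_mk]
      refine congrArg _ (funext fun j => ?_)
      exact SymmetricPower.tprod_equiv π.symm fun i => e (r i ((σ i).symm j))
    rw [pure2_expand e (fun j i => v i ((σ i).symm j))]
    let q : (Fin a → Fin b → Fin n) ≃ (Fin b → Fin a → Fin n) :=
      { toFun := fun r j i => r i ((σ i).symm j)
        invFun := fun s i l => s (σ i l) i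
        left_inv := fun r => by funext i l; simp
        right_inv := fun s => by funext j i; simp }
    rw [← q.sum_comp]
    refine Finset.sum_congr rfl fun r _ => ?_
    rw [h1]
    congr 1
    rw [Finset.prod_comm (s := (Finset.univ : Finset (Fin b)))]
    refine Finset.prod_congr rfl fun i _ => ?_
    exact ((σ i).symm.prod_comp fun l => e.coord (r i l) (v i l)).symm
  simp only [psi, LinearMap.smul_apply, LinearMap.sum_apply, LinearMap.smulRight_apply]
  rw [sum_nest_smul e (fun r => pure2 fun j i => e (r i j)) v]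
  simp only [key, Finset.sum_const, Finset.card_univ, Fintype.card_perm, Fintype.card_fin]
  rw [← Nat.cast_smul_eq_nsmul ℂ, smul_smul,
    inv_mul_cancel₀ (by exact_mod_cast Nat.factorial_ne_zero a), one_smul]
  exact Equiv.sum_comp (Equiv.piCongrRight fun _ => Equiv.inv (Equiv.Perm (Fin b)))
    (fun σ => pure2 fun j i => v i (σ i j))

/-- The linear functional with given coordinates. -/
noncomputable def dlin (w : Fin n → ℂ) : Module.Dual ℂ V := ∑ q, w q • e.coord q

/-- Substitute the vectors `v i j` with marker variables. -/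
noncomputable def subst (v : Fin a → Fin b → V) :
    Ring' a n →ₐ[ℂ] MvPolynomial (Fin a × Fin b) ℂ :=
  MvPolynomial.aeval fun p => ∑ j, e.coord p.2 (v p.1 j) • MvPolynomial.X (p.1, j)

/-- The coefficient of the product of all markers. -/
noncomputable def lam (v : Fin a → Fin b → V) : Ring' a n →ₗ[ℂ] ℂ :=
  MvPolynomial.lcoeff ℂ (Finsupp.equivFunOnFinite.symm fun _ => 1) ∘ₗ (subst e v).toLinearMap

open MvPolynomial in
theorem lam_gen (v : Fin a → Fin b → V) (u : Fin b → Fin a → (Fin n → ℂ)) :
    lam e v (gen b u) = ∏ i, ∑ σ : Equiv.Perm (Fin b), ∏ l, dlin e (u l i) (v i (σ l)) := by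
  classical
  have hlf : ∀ i w, subst e v (lf i w)
      = ∑ j, MvPolynomial.C (dlin e w (v i j)) * X (i, j) := by
    intro i w
    simp only [lf, Fintype.linearCombination_apply, map_sum, map_smul, subst, aeval_X,
      Finset.smul_sum, smul_smul]
    rw [Finset.sum_comm]
    refine Finset.sum_congr rfl fun j _ => ?_
    rw [← Finset.sum_smul, smul_eq_C_mul]
    simp [dlin, LinearMap.sum_apply, LinearMap.smul_apply]
  simp only [lam, LinearMap.comp_apply, AlgHom.toLinearMap_apply, gen, map_prod, hlf]
  rw [Finset.prod_comm]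
  simp only [Fintype.prod_sum, map_sum, lcoeff_apply, Finset.prod_mul_distrib, ← map_prod,
    coeff_C_mul]
  have hcoeff : ∀ g : Fin a → Fin b → Fin b,
      coeff (Finsupp.equivFunOnFinite.symm fun _ => 1)
        (∏ i, ∏ l, (X (i, g i l) : MvPolynomial (Fin a × Fin b) ℂ))
        = if ∀ i, Function.Bijective (g i) then 1 else 0 := by
    intro g
    let d : Fin a × Fin b →₀ ℕ := ∑ i, ∑ l, Finsupp.single (i, g i l) 1
    have hd : (∏ i, ∏ l, (X (i, g i l) : MvPolynomial (Fin a × Fin b) ℂ)) = monomial d 1 := by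
      simp only [d, monomial_sum_one]
      rfl
    have hval : ∀ i j, d (i, j) = (Finset.univ.filter fun l => g i l = j).card := by
      intro i j
      simp only [d, Finsupp.finsetSum_apply]
      rw [Finset.sum_eq_single i]
      · simp only [Finsupp.single_apply, Prod.mk.injEq, true_and, Finset.card_filter]
      · intro i' _ hne
        simp [hne]
      · simp
    rw [hd, coeff_monomial]
    refine if_congr ⟨fun h i => ?_, fun h => ?_⟩ rfl rfl
    · refine (Finite.surjective_iff_bijective).1 fun j => ?_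
      have h1 : d (i, j) = 1 := by rw [h]; rfl
      rw [hval, Finset.card_eq_one] at h1
      obtain ⟨l, hl⟩ := h1
      have hm := Finset.mem_singleton_self l
      rw [← hl] at hm
      exact ⟨l, (Finset.mem_filter.1 hm).2⟩
    · ext ⟨i, j⟩
      rw [hval]
      obtain ⟨l, hl⟩ := (h i).2 j
      rw [Finset.card_eq_one.2 ⟨l, ?_⟩]
      · rfl
      · ext l'
        simp only [Finset.mem_filter, Finset.mem_univ, true_and, Finset.mem_singleton]
        exact ⟨fun h' => (h i).1 (h'.trans hl.symm), fun h' => h' ▸ hl⟩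
  simp only [hcoeff, mul_ite, mul_one, mul_zero]
  rw [← Finset.sum_filter]
  refine Finset.sum_bij' (fun g hg => fun i => Equiv.ofBijective (g i) ((Finset.mem_filter.1 hg).2 i))
    (fun σ _ => fun i => σ i) ?_ ?_ ?_ ?_ ?_
  · simp
  · intro σ _
    exact Finset.mem_filter.2 ⟨Finset.mem_univ _, fun i => (σ i).bijective⟩
  · intro g _; rfl
  · intro σ _; funext i; ext; rfl
  · intro g _; rfl

theorem nest_psi (v : Fin a → Fin b → V) (t : Fin b → (Fin n → ℂ)) :
    nest (fun j (_ : Fin a) => dlin e (t j)) (psi e (pure2 v))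
      = ((a.factorial : ℂ) ^ b * b.factorial) * lam e v (gen b fun l _ => t l) := by
  classical
  have key : ∀ π : Equiv.Perm (Fin b),
      (∑ σ : Fin a → Equiv.Perm (Fin b), ∏ j, ∏ i, dlin e (t (π j)) (v i (σ i j)))
        = lam e v (gen b fun l _ => t l) := by
    intro π
    rw [lam_gen, Fintype.prod_sum]
    refine Fintype.sum_equiv (Equiv.piCongrRight fun _ => Equiv.mulRight π⁻¹) _ _ fun σ => ?_
    rw [Finset.prod_comm]
    refine Finset.prod_congr rfl fun i _ => ?_
    exact Fintype.prod_equiv π _ _ fun j => by simp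
  rw [psi_pure2, map_sum]
  simp only [nest, pure2, symSum_tprod, Finset.sum_const, Finset.card_univ, Fintype.card_perm,
    Fintype.card_fin, nsmul_eq_mul, Finset.prod_mul_distrib, Finset.prod_const]
  rw [Finset.sum_comm]
  simp only [← Finset.mul_sum, key, Finset.sum_const, Finset.card_univ, Fintype.card_perm,
    Fintype.card_fin, nsmul_eq_mul]
  ring

theorem act_gen (π : Equiv.Perm (Fin a)) (u : Fin b → Fin a → (Fin n → ℂ)) :
    act π (gen b u) = gen b (fun l i => u l (π.symm i)) := by
  simp only [gen, map_prod, act_lf]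
  refine Finset.prod_congr rfl fun l _ => ?_
  exact Fintype.prod_equiv π _ _ fun i => by simp

theorem nest_eq_lam (r : Fin a → Fin b → Fin n) (v : Fin a → Fin b → V) :
    nest (fun i l => e.coord (r i l)) (pure2 v)
      = lam e v (sy (gen b fun l i => Pi.single (r i l) (1 : ℂ))) := by
  classical
  simp only [sy, LinearMap.sum_apply, AlgHom.toLinearMap_apply, map_sum, act_gen, lam_gen]
  simp only [nest, pure2, symSum_tprod]
  refine Fintype.sum_equiv (Equiv.inv _) _ _ fun π => ?_
  refine Finset.prod_congr rfl fun i _ => ?_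
  refine Fintype.sum_equiv (Equiv.inv _) _ _ fun σ => ?_
  rw [← Equiv.prod_comp σ.symm]
  simp [dlin, Pi.single_apply, ite_smul, Equiv.Perm.inv_def]

theorem psi_injective (hR : Rk a n b ≤ A1 a n ^ b) :
    Function.Injective (psi (a := a) (b := b) e) := by
  classical
  rw [injective_iff_map_eq_zero]
  intro x hx
  have hxs : x ∈ Submodule.span ℂ (Set.range (pure2 (V := V) (a := a) (b := b))) := by
    rw [span_pure2]; trivial
  obtain ⟨c, rfl⟩ := Finsupp.mem_span_range_iff_exists_finsupp.1 hxs
  let Γ : Ring' a n →ₗ[ℂ] ℂ := c.sum fun v k => k • lam e v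
  have hA : A1 a n ^ b ≤ LinearMap.ker Γ := by
    rw [A1, Submodule.span_pow, Submodule.span_le]
    intro p hp
    obtain ⟨f, rfl⟩ := Set.mem_pow.1 hp
    choose t ht using fun l => (f l).2
    have hp : (List.ofFn fun l => (f l : Ring' a n)).prod = gen b (fun l _ => t l) := by
      rw [List.prod_ofFn]
      exact Finset.prod_congr rfl fun l _ => (ht l).symm
    rw [hp, SetLike.mem_coe, LinearMap.mem_ker]
    have h := congrArg (nest fun j (_ : Fin a) => dlin e (t j)) hx
    simp only [Finsupp.sum, map_sum, map_smul, nest_psi, map_zero, smul_eq_mul] at h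
    simp only [Γ, Finsupp.sum, LinearMap.sum_apply, LinearMap.smul_apply, smul_eq_mul]
    have hne : ((a.factorial : ℂ) ^ b * b.factorial) ≠ 0 :=
      mul_ne_zero (pow_ne_zero _ (by exact_mod_cast Nat.factorial_ne_zero a))
        (by exact_mod_cast Nat.factorial_ne_zero b)
    refine (mul_eq_zero.1 ?_).resolve_left hne
    rw [Finset.mul_sum, ← h]
    exact Finset.sum_congr rfl fun v _ => by ring
  have hzero : ∀ r : Fin a → Fin b → Fin n, nest (fun i l => e.coord (r i l)) (c.sum fun v k => k • pure2 v) = 0 := by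
    intro r
    have hm := hA (hR ⟨_, gen_mem b (fun l i => Pi.single (r i l) (1 : ℂ)), rfl⟩)
    simpa [Γ, Finsupp.sum, LinearMap.sum_apply, map_sum, nest_eq_lam] using hm
  let I : SymmetricPower ℂ (Fin a) (SymmetricPower ℂ (Fin b) V) →ₗ[ℂ]
      SymmetricPower ℂ (Fin a) (SymmetricPower ℂ (Fin b) V) :=
    ∑ r : Fin a → Fin b → Fin n,
      (nest fun i l => e.coord (r i l)).smulRight (pure2 fun i l => e (r i l))
  let k : ℂ := ((a.factorial * b.factorial ^ a : ℕ) : ℂ)
  have hI : ∀ v, I (pure2 v) = k • pure2 v := by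
    intro v
    simp only [I, LinearMap.sum_apply, LinearMap.smulRight_apply]
    rw [sum_nest_smul e (fun r => pure2 fun i l => e (r i l)) v]
    have h1 : ∀ (π : Equiv.Perm (Fin a)) (σ : Fin a → Equiv.Perm (Fin b)) r,
        pure2 (fun i l => e ((reindexIdx π σ).symm r i l)) = pure2 (fun i l => e (r i l)) :=
      fun π σ r => pure2_reindex (fun i l => e (r i l)) π σ
    simp only [h1, ← pure2_expand e v, Finset.sum_const, Finset.card_univ, Fintype.card_perm,
      Fintype.card_fin, Fintype.card_pi, Finset.prod_const, smul_smul]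
    exact (Nat.cast_smul_eq_nsmul ℂ _ _).symm
  have h1 : I (c.sum fun v k => k • pure2 v) = k • (c.sum fun v k => k • pure2 v) := by
    simp only [Finsupp.sum, map_sum, map_smul, hI, Finset.smul_sum]
    exact Finset.sum_congr rfl fun v _ => smul_comm _ _ _
  have h0 : I (c.sum fun v k => k • pure2 v) = 0 := by
    simp only [I, LinearMap.sum_apply, LinearMap.smulRight_apply, hzero, zero_smul,
      Finset.sum_const_zero]
  rw [h0] at h1
  refine (smul_eq_zero.1 h1.symm).resolve_left ?_
  exact Nat.cast_ne_zero.2 (Nat.mul_ne_zero (Nat.factorial_ne_zero a)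
    (pow_ne_zero _ (Nat.factorial_ne_zero b)))

end Vale.Agent.P181
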